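import Vale.Agent.P371.Gamma.Defs

/-!
P371, module Solvent: spectrum of a solvent, Sylvester's argument, uniqueness, diagonal solvents.
-/

open Matrix Polynomial
open scoped Matrix.Norms.L2Operator ComplexOrder

namespace Vale.Agent.P371.Gamma.Sol

variable {N : ℕ}

/-- The quadratic form of a matrix. -/
def qf (M : Mat N) (v : Fin N → ℂ) : ℂ := star v ⬝ᵥ M *ᵥ v

/-- The squared norm of a vector, as a complex number. -/
def nq (v : Fin N → ℂ) : ℂ := star v ⬝ᵥ v

lemma nq_re_pos {v : Fin N → ℂ} (hv : v ≠ 0) : 0 < (nq v).re :=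
  (Complex.pos_iff.mp (dotProduct_star_self_pos_iff.mpr hv)).1

lemma qf_im {M : Mat N} (hM : M.IsHermitian) (v : Fin N → ℂ) : (qf M v).im = 0 :=
  hM.im_star_dotProduct_mulVec_self v

lemma posDef_of_re {M : Mat N} (hM : M.IsHermitian) (h : ∀ v ≠ 0, 0 < (qf M v).re) : M.PosDef :=
  Matrix.PosDef.of_dotProduct_mulVec_pos hM fun v hv =>
    Complex.pos_iff.mpr ⟨h v hv, (qf_im hM v).symm⟩

lemma qf_re_pos {M : Mat N} (hM : M.PosDef) {v : Fin N → ℂ} (hv : v ≠ 0) : 0 < (qf M v).re :=
  (Complex.pos_iff.mp (hM.dotProduct_mulVec_pos hv)).1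

/-! ### Spectrum -/

lemma mem_spectrum_iff_det (M : Mat N) (μ : ℂ) :
    μ ∈ spectrum ℂ M ↔ (Matrix.scalar (Fin N) μ - M).det = 0 := by
  rw [mem_spectrum_iff_isRoot_charpoly, IsRoot, Matrix.eval_charpoly]

lemma exists_eigvec {M : Mat N} {μ : ℂ} (h : μ ∈ spectrum ℂ M) :
    ∃ v : Fin N → ℂ, v ≠ 0 ∧ M *ᵥ v = μ • v := by
  obtain ⟨v, hv, he⟩ := Matrix.exists_mulVec_eq_zero_iff.mpr ((mem_spectrum_iff_det M μ).mp h)
  refine ⟨v, hv, ?_⟩
  rw [Matrix.sub_mulVec, sub_eq_zero] at he
  rw [← he]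
  ext i
  simp [Matrix.mulVec_diagonal]

lemma mul_aeval_of_semiconj {S T D : Mat N} (h : S * D = D * T) (p : ℂ[X]) :
    aeval S p * D = D * aeval T p := by
  induction p using Polynomial.induction_on' with
  | add p q hp hq => rw [map_add, map_add, add_mul, mul_add, hp, hq]
  | monomial n a =>
    have hn : S ^ n * D = D * T ^ n := by
      induction n with
      | zero => simp
      | succ k ih => rw [pow_succ', mul_assoc, ih, ← mul_assoc, h, mul_assoc, ← pow_succ']
    simp only [aeval_monomial, Algebra.algebraMap_eq_smul_one, smul_mul_assoc, one_mul,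
      mul_smul_comm, hn]

/-- Sylvester: disjoint spectra give no intertwiner. -/
lemma eq_zero_of_semiconj {S T D : Mat N} (hst : ∀ μ ∈ spectrum ℂ S, μ ∉ spectrum ℂ T)
    (h : S * D = D * T) : D = 0 := by
  rcases isEmpty_or_nonempty (Fin N) with hN | hN
  · exact Subsingleton.elim _ _
  have h0 : D * aeval T S.charpoly = 0 := by
    rw [← mul_aeval_of_semiconj h, Matrix.aeval_self_charpoly, zero_mul]
  have hu : IsUnit (aeval T S.charpoly) := by
    by_contra hc
    have h1 : (0 : ℂ) ∈ spectrum ℂ (aeval T S.charpoly) := (spectrum.zero_mem_iff ℂ).mpr hc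
    rw [spectrum.map_polynomial_aeval_of_nonempty _ _
      (spectrum.nonempty_of_isAlgClosed_of_finiteDimensional ℂ T)] at h1
    obtain ⟨k, hk, he⟩ := h1
    exact hst k (mem_spectrum_iff_isRoot_charpoly.mpr he) hk
  exact hu.mul_left_eq_zero.mp h0

/-- The upper half plane contains the spectrum. -/
def SpecUHP (Z : Mat N) : Prop := ∀ μ ∈ spectrum ℂ Z, 0 < μ.im

lemma spec_star {Z : Mat N} (hZ : SpecUHP Z) : ∀ μ ∈ spectrum ℂ (star Z), μ.im < 0 := by
  intro μ hμ
  rw [spectrum.map_star, Set.mem_star] at hμ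
  have := hZ _ hμ
  rw [Complex.star_def, Complex.conj_im] at this
  linarith

lemma isSolvent_spec {G A Z X : Mat N} (h : IsSolvent G A Z X) : SpecUHP Z := by
  intro μ hμ
  have hμ' : star μ ∈ spectrum ℂ (star Z) := by
    rw [spectrum.map_star, Set.mem_star, star_star]
    exact hμ
  obtain ⟨w, hw, he⟩ := exists_eigvec hμ'
  have hl : star w ᵥ* Z = μ • star w := by
    have := congrArg star he
    rwa [Matrix.star_mulVec, ← Matrix.star_eq_conjTranspose, star_star, star_smul, star_star]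
      at this
  have e : qf (Z * X - X * star Z) w = (μ - star μ) * qf X w := by
    simp only [qf, Matrix.sub_mulVec, dotProduct_sub, ← Matrix.mulVec_mulVec, he,
      Matrix.mulVec_smul, dotProduct_smul, smul_eq_mul]
    rw [Matrix.dotProduct_mulVec, hl, smul_dotProduct, smul_eq_mul, sub_mul]
  rw [h.lyap] at e
  have e' := congrArg Complex.im e
  simp [qf, Matrix.smul_mulVec, Matrix.one_mulVec, dotProduct_smul,
    Complex.mul_im] at e'
  have hp : 0 < (qf X w).re := qf_re_pos h.pos hw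
  have hn : 0 < (nq w).re := nq_re_pos hw
  simp only [qf, nq] at hp hn
  by_contra hc
  nlinarith [not_lt.mp hc]

/-- `D ↦ Z D - D Z*` is injective. -/
lemma lyap_injective {Z D : Mat N} (hZ : SpecUHP Z) (h : Z * D - D * star Z = 0) : D = 0 :=
  eq_zero_of_semiconj (fun μ hμ hμ' => absurd (spec_star hZ μ hμ') (hZ μ hμ).le.not_gt)
    (sub_eq_zero.mp h)

lemma star_lyap {Z X : Mat N} (h : Z * X - X * star Z = Complex.I • 1) :
    Z * star X - star X * star Z = Complex.I • 1 := by
  have e := congrArg star h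
  rw [star_sub, star_mul, star_mul, star_star, star_smul, star_one, Complex.star_def,
    Complex.conj_I, neg_smul] at e
  rw [← neg_sub, e, neg_neg]

lemma isSolvent_unique {G A Z X Z' X' : Mat N} (h : IsSolvent G A Z X)
    (h' : IsSolvent G A Z' X') : Z' = Z ∧ X' = X := by
  have hd : star (Z' - Z) = -(Z' - Z) := by
    have e := h'.add_star.trans h.add_star.symm
    rw [star_sub, neg_sub, sub_eq_sub_iff_add_eq_add, add_comm (star Z'), add_comm (Z : Mat N)]
    rw [add_comm (Z' : Mat N)] at e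
    exact (add_comm _ _).trans (e.trans (add_comm _ _))
  have he : star Z' * (Z' - Z) = (Z' - Z) * Z := by
    have e1 : star Z' * (Z' - Z) + star (Z' - Z) * Z = star Z' * Z' - star Z * Z := by
      rw [star_sub]; noncomm_ring
    rw [h'.star_mul, h.star_mul, sub_self, hd, neg_mul, ← sub_eq_add_neg, sub_eq_zero] at e1
    exact e1
  have hZ : Z' = Z := sub_eq_zero.mp <| eq_zero_of_semiconj
    (fun μ hμ hμ' => absurd (spec_star (isSolvent_spec h') μ hμ)
      (isSolvent_spec h μ hμ').le.not_gt) he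
  subst hZ
  refine ⟨rfl, sub_eq_zero.mp <| lyap_injective (isSolvent_spec h) ?_⟩
  rw [mul_sub, sub_mul, sub_sub_sub_comm, h.lyap, h'.lyap, sub_self]

/-! ### Diagonal solvents -/

/-- `U diag(f) U*`. -/
noncomputable def cd (U : unitaryGroup (Fin N) ℂ) (f : Fin N → ℂ) : Mat N :=
  (U : Mat N) * diagonal f * star (U : Mat N)

lemma cd_add (U : unitaryGroup (Fin N) ℂ) (f g : Fin N → ℂ) :
    cd U f + cd U g = cd U (f + g) := by
  rw [cd, cd, cd, ← add_mul, ← mul_add, diagonal_add]
  rfl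

lemma cd_sub (U : unitaryGroup (Fin N) ℂ) (f g : Fin N → ℂ) :
    cd U f - cd U g = cd U (f - g) := by
  rw [cd, cd, cd, ← sub_mul, ← mul_sub, diagonal_sub]
  rfl

lemma cd_mul (U : unitaryGroup (Fin N) ℂ) (f g : Fin N → ℂ) :
    cd U f * cd U g = cd U (f * g) := by
  simp only [cd, mul_assoc]
  rw [← mul_assoc (star (U : Mat N)) (U : Mat N), UnitaryGroup.star_mul_self, one_mul,
    ← mul_assoc (diagonal f) (diagonal g), diagonal_mul_diagonal]
  rfl

lemma cd_star (U : unitaryGroup (Fin N) ℂ) (f : Fin N → ℂ) : star (cd U f) = cd U (star f) := by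
  simp only [cd, star_mul, star_star, mul_assoc]
  rw [Matrix.star_eq_conjTranspose (diagonal f), diagonal_conjTranspose]

lemma cd_smul (U : unitaryGroup (Fin N) ℂ) (c : ℂ) (f : Fin N → ℂ) :
    c • cd U f = cd U (c • f) := by
  rw [cd, cd, diagonal_smul, mul_smul_comm, smul_mul_assoc]

lemma cd_one (U : unitaryGroup (Fin N) ℂ) : cd U 1 = 1 := by
  rw [cd, diagonal_one', mul_one]
  exact Unitary.mul_star_self_of_mem U.2

lemma cd_det (U : unitaryGroup (Fin N) ℂ) (f : Fin N → ℂ) : (cd U f).det = ∏ i, f i := by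
  have h : (U : Mat N).det * (star (U : Mat N)).det = 1 := by
    rw [← det_mul, Unitary.mul_star_self_of_mem U.2, det_one]
  rw [cd, det_mul, det_mul, det_diagonal, mul_right_comm, h, one_mul]

lemma cd_posDef (U : unitaryGroup (Fin N) ℂ) {f : Fin N → ℂ} (h : ∀ i, 0 < f i) :
    (cd U f).PosDef := by
  have hU : IsUnit (U : Mat N) := ⟨Unitary.toUnits U, rfl⟩
  exact hU.posDef_star_right_conjugate_iff.mpr (Matrix.PosDef.diagonal h)

lemma eq_cd {K : Mat N} (hK : K.IsHermitian) :
    K = cd hK.eigenvectorUnitary fun i => (hK.eigenvalues i : ℂ) :=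
  (hK.spectral_theorem).trans (Unitary.conjStarAlgAut_apply _ _)

/-- A diagonal solvent. -/
lemma isSolvent_cd {G A : Mat N} (U : unitaryGroup (Fin N) ℂ) (g y : Fin N → ℝ)
    (hy : ∀ i, 0 < y i) (hG : G = cd U fun i => (g i : ℂ))
    (hA : A = cd U fun i => ((g i ^ 2 + y i ^ 2 : ℝ) : ℂ)) :
    IsSolvent G A (cd U fun i => -(g i : ℂ) + Complex.I * (y i : ℂ))
      (cd U fun i => (((2 * y i)⁻¹ : ℝ) : ℂ)) where
  add_star := by
    rw [cd_star, cd_add, hG, cd_smul, ← neg_one_smul ℂ, cd_smul]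
    congr 1
    funext i
    simp
    ring
  star_mul := by
    rw [cd_star, cd_mul, hA]
    congr 1
    funext i
    simp
    linear_combination ((y i : ℂ) ^ 2) * Complex.I_sq * (-1)
  lyap := by
    rw [cd_star, cd_mul, cd_mul, cd_sub, ← cd_one U, cd_smul]
    congr 1
    funext i
    have : (y i : ℂ) ≠ 0 := Complex.ofReal_ne_zero.mpr (hy i).ne'
    simp
    field_simp
    ring
  pos := cd_posDef U fun i => Complex.zero_lt_real.mpr (inv_pos.mpr (mul_pos two_pos (hy i)))

end Vale.Agent.P371.Gamma.Sol
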