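import Vale.Agent.P371.Gamma.Solvent.Exists

/-!
P371, module Solvent: derivatives of the trace and of the determinant of the solvent.
-/

open Matrix Filter Topology Set
open scoped Matrix.Norms.L2Operator ComplexOrder

namespace Vale.Agent.P371.Gamma.Sol

variable {N : ℕ}

/-- Differentiating the equations of a solvent. -/
lemma deriv_equations {s : Set ℝ} {t : ℝ} {z γG γA : ℝ → Mat N} {D G' A' : Mat N}
    (hs : UniqueDiffWithinAt ℝ s t) (hts : t ∈ s) (hz : HasDerivWithinAt z D s t)
    (hG : HasDerivWithinAt γG G' s t) (hA : HasDerivWithinAt γA A' s t)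
    (h1 : ∀ᶠ u in 𝓝[s] t, z u + star (z u) = -((2 : ℂ) • γG u))
    (h2 : ∀ᶠ u in 𝓝[s] t, star (z u) * z u = γA u) :
    star (z t) * D - D * z t = A' + (2 : ℂ) • (G' * z t) := by
  have d1 : D + star D = -((2 : ℂ) • G') :=
    hs.eq_deriv _ (hz.add hz.star)
      ((hG.const_smul (2 : ℂ)).neg.congr_of_eventuallyEq h1 (h1.self_of_nhdsWithin hts))
  have d2 : star D * z t + star (z t) * D = A' :=
    hs.eq_deriv _ (hz.star.mul hz)
      (hA.congr_of_eventuallyEq h2 (h2.self_of_nhdsWithin hts))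
  have d3 : star D = -((2 : ℂ) • G') - D := eq_sub_of_add_eq (by rw [add_comm]; exact d1)
  rw [d3, sub_mul, neg_mul, smul_mul_assoc] at d2
  rw [← d2]
  abel

/-- Differentiating the solvent along a path. -/
lemma pick_hasDerivWithinAt {s : Set ℝ} {t : ℝ} {γG γA : ℝ → Mat N} {G' A' : Mat N}
    (hs : UniqueDiffWithinAt ℝ s t) (hts : t ∈ s) (hG : HasDerivWithinAt γG G' s t)
    (hA : HasDerivWithinAt γA A' s t)
    (hh : ∀ u ∈ s, (γG u).IsHermitian ∧ (γA u).IsHermitian)
    (hp : PencilPos (γG t) (γA t)) :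
    ∃ D : Mat N, HasDerivWithinAt (fun u => (pick (γG u, γA u)).1) D s t ∧
      star (pick (γG t, γA t)).1 * D - D * (pick (γG t, γA t)).1
        = A' + (2 : ℂ) • (G' * (pick (γG t, γA t)).1) := by
  obtain ⟨g, hg, he⟩ := exists_local (pick_isSolvent hp)
  have hev : ∀ᶠ u in 𝓝[s] t, IsSolvent (γG u) (γA u) (g (γG u, γA u)).1 (g (γG u, γA u)).2 ∧
      pick (γG u, γA u) = g (γG u, γA u) := by
    filter_upwards [(hG.continuousWithinAt.prodMk hA.continuousWithinAt).eventually he,
      self_mem_nhdsWithin] with u hu hus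
    exact ⟨hu (hh u hus).1 (hh u hus).2, pick_eq (hu (hh u hus).1 (hh u hus).2)⟩
  have hd : DifferentiableWithinAt ℝ (fun u => (g (γG u, γA u)).1) s t :=
    DifferentiableAt.comp_differentiableWithinAt (g := fun q => (g q).1)
      (f := fun u => (γG u, γA u)) t (DifferentiableAt.fst hg)
      (hG.differentiableWithinAt.prodMk hA.differentiableWithinAt)
  refine ⟨derivWithin (fun u => (g (γG u, γA u)).1) s t,
    hd.hasDerivWithinAt.congr_of_eventuallyEq (hev.mono fun u hu => congrArg Prod.fst hu.2)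
      (congrArg Prod.fst (hev.self_of_nhdsWithin hts).2), ?_⟩
  rw [(hev.self_of_nhdsWithin hts).2]
  have h := deriv_equations (z := fun u => (g (γG u, γA u)).1) hs hts hd.hasDerivWithinAt hG hA
    (hev.mono fun u hu => hu.1.add_star) (hev.mono fun u hu => hu.1.star_mul)
  exact h

lemma hasDerivAt_trace_im {G A : Mat N} {t : ℝ} (h : PencilPos G (A + (t : ℂ) • 1)) :
    HasDerivAt (fun u : ℝ => (pick (G, A + (u : ℂ) • 1)).1.trace.im)
      (pick (G, A + (t : ℂ) • 1)).2.trace.re t := by
  have hu : HasDerivAt (fun u : ℝ => A + (u : ℂ) • (1 : Mat N)) 1 t := by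
    simpa using ((hasDerivAt_id t).ofReal_comp.smul_const (1 : Mat N)).const_add A
  have h1 : star (A + (t : ℂ) • (1 : Mat N)) = A + (t : ℂ) • 1 := h.2.1
  have hA : star A = A := by
    rw [star_add, star_smul, star_one, Complex.star_def, Complex.conj_ofReal] at h1
    exact add_right_cancel h1
  obtain ⟨D, hD, he⟩ := pick_hasDerivWithinAt (s := univ) uniqueDiffWithinAt_univ (mem_univ t)
    (hasDerivWithinAt_const t univ G) hu.hasDerivWithinAt
    (fun u _ => ⟨h.1, by
      change star (A + (u : ℂ) • (1 : Mat N)) = A + (u : ℂ) • 1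
      rw [star_add, star_smul, star_one, Complex.star_def, Complex.conj_ofReal, hA]⟩) h
  have hsol := pick_isSolvent h
  rw [zero_mul, smul_zero, add_zero] at he
  set Z := (pick (G, A + (t : ℂ) • 1)).1
  set X := (pick (G, A + (t : ℂ) • 1)).2
  have e := congrArg (fun M => (X * M).trace) he
  simp only [mul_sub, mul_one, Matrix.trace_sub] at e
  rw [← mul_assoc, ← mul_assoc, Matrix.trace_mul_cycle X D Z, ← Matrix.trace_sub, ← sub_mul,
    ← neg_sub (Z * X), hsol.lyap, neg_mul, Matrix.trace_neg, smul_mul_assoc, one_mul,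
    Matrix.trace_smul, smul_eq_mul] at e
  have key := (Complex.imCLM.comp
    (Matrix.traceLinearMap (Fin N) ℝ ℂ).toContinuousLinearMap).hasFDerivAt.comp_hasDerivAt t
      (hasDerivWithinAt_univ.mp hD)
  refine key.congr_deriv ?_
  change D.trace.im = X.trace.re
  rw [← e]
  simp

lemma det_fderiv {Z : Mat N} (hZ : IsUnit Z.det) (D : Mat N) :
    fderiv ℝ (fun M : Mat N => M.det) Z D = Z.det * (Z⁻¹ * D).trace := by
  have hline : HasDerivAt (fun u : ℝ => Z + u • D) D 0 := by
    simpa using ((hasDerivAt_id (0 : ℝ)).smul_const D).const_add Z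
  have h1 := ((differentiable_det (N := N)).differentiableAt
    (x := Z)).hasFDerivAt.comp_hasDerivAt_of_eq (0 : ℝ) hline (by simp)
  have h2 : HasDerivAt (fun u : ℝ => Z.det * (1 + (u : ℂ) • (Z⁻¹ * D)).det)
      (Z.det * (Z⁻¹ * D).trace) 0 := by
    refine HasDerivAt.const_mul _ ?_
    have hf := (hasDerivAt_det_line (Z⁻¹ * D)).comp_ofReal (z := (0 : ℝ))
    simpa using hf
  refine h1.unique (h2.congr_of_eventuallyEq (Eventually.of_forall fun u => ?_))
  simp only [Function.comp_apply]
  rw [← det_mul, mul_add, mul_one, mul_smul_comm, ← mul_assoc, Matrix.mul_nonsing_inv _ hZ,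
    one_mul, Complex.coe_smul]
where
  differentiable_det {N : ℕ} : Differentiable ℝ (fun M : Mat N => M.det) := by
    simp only [Matrix.det_apply']
    refine Differentiable.fun_sum fun σ _ => Differentiable.const_mul (𝔸 := ℂ) ?_ _
    intro M
    exact (HasFDerivAt.finsetProd (g := fun i (M : Mat N) => M (σ i) i) fun i _ =>
      ((entryLinearMap ℝ ℂ (σ i) i).toContinuousLinearMap).hasFDerivAt).differentiableAt
  hasDerivAt_det_line {N : ℕ} (Y : Mat N) :
      HasDerivAt (fun z : ℂ => (1 + z • Y).det) Y.trace (0 : ℝ) := by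
    have h : (fun z : ℂ => (1 + z • Y).det) = fun z => 1 + Y.trace * z +
        (det (1 + (Polynomial.X : Polynomial ℂ) • Y.map Polynomial.C)).divX.divX.eval z * z ^ 2 :=
      funext fun z => Matrix.det_one_add_smul z Y
    rw [h, Complex.ofReal_zero]
    simpa using (((hasDerivAt_id (0 : ℂ)).const_mul Y.trace).const_add 1).fun_add
      ((Polynomial.hasDerivAt _ (0 : ℂ)).fun_mul ((hasDerivAt_id (0 : ℂ)).fun_pow 2))

lemma isUnit_det {G A : Mat N} (h : PencilPos G A) : IsUnit (pick (G, A)).1.det := by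
  rw [isUnit_iff_ne_zero]
  intro h0
  have hs := isSolvent_spec (pick_isSolvent h) 0 ((mem_spectrum_iff_det _ 0).mpr (by
    rw [map_zero, zero_sub, det_neg, h0, mul_zero]))
  simp at hs

/-- The derivative of `det Z` when `G` moves. -/
lemma hasDerivWithinAt_det {s : Set ℝ} {t : ℝ} {γG : ℝ → Mat N} {G' A : Mat N}
    (hs : UniqueDiffWithinAt ℝ s t) (hts : t ∈ s) (hG : HasDerivWithinAt γG G' s t)
    (hh : ∀ u ∈ s, (γG u).IsHermitian) (hp : PencilPos (γG t) A) :
    HasDerivWithinAt (fun u => (pick (γG u, A)).1.det)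
      ((pick (γG t, A)).1.det * (2 * Complex.I * ((pick (γG t, A)).2 * G').trace)) s t := by
  obtain ⟨D, hD, he⟩ := pick_hasDerivWithinAt hs hts hG (hasDerivWithinAt_const t s A)
    (fun u hu => ⟨hh u hu, hp.2.1⟩) hp
  rw [zero_add] at he
  have hu := isUnit_det hp
  have hsol := pick_isSolvent hp
  set Z := (pick (γG t, A)).1
  set X := (pick (γG t, A)).2
  have key := (det_fderiv.differentiable_det (N := N)).differentiableAt
    (x := Z) |>.hasFDerivAt.comp_hasDerivWithinAt t hD
  refine key.congr_deriv ?_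
  rw [det_fderiv hu]
  congr 1
  have e := congrArg (fun M => (X * (M * Z⁻¹)).trace) he
  simp only [sub_mul, mul_sub, smul_mul_assoc, mul_smul_comm, mul_assoc,
    Matrix.mul_nonsing_inv _ hu, mul_one, Matrix.trace_sub, Matrix.trace_smul, smul_eq_mul] at e
  have e1 : (X * (star Z * (D * Z⁻¹))).trace - (X * D).trace
      = -Complex.I * (Z⁻¹ * D).trace := by
    have e2 : (X * D).trace = (Z * X * (D * Z⁻¹)).trace := by
      rw [Matrix.trace_mul_comm (Z * X), mul_assoc D, ← mul_assoc Z⁻¹,
        Matrix.nonsing_inv_mul _ hu, one_mul, Matrix.trace_mul_comm]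
    rw [e2, ← mul_assoc X, ← Matrix.trace_sub, ← sub_mul, ← neg_sub (Z * X), hsol.lyap, neg_mul,
      Matrix.trace_neg, smul_mul_assoc, one_mul, Matrix.trace_smul, smul_eq_mul,
      Matrix.trace_mul_comm D, neg_mul]
  rw [e1] at e
  linear_combination (Complex.I) * e + (Z⁻¹ * D).trace * Complex.I_sq

end Vale.Agent.P371.Gamma.Sol
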