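import Vale.Agent.P371.Gamma.Solvent.Local

/-!
P371, module Solvent: existence by the continuity method, the selection and its regularity.
-/

open Matrix Filter Topology Set
open scoped Matrix.Norms.L2Operator ComplexOrder

namespace Vale.Agent.P371.Gamma.Sol

variable {N : ℕ}

lemma pencil_smul {G A : Mat N} (h : PencilPos G A) {σ : ℝ} (hσ : σ ∈ Icc (0 : ℝ) 1) :
    PencilPos ((σ : ℂ) • G) A := by
  refine ⟨?_, h.2.1, fun v hv => ?_⟩
  · change star ((σ : ℂ) • G) = (σ : ℂ) • G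
    rw [star_smul, Complex.star_def, Complex.conj_ofReal, h.1.star_eq]
  · rw [Matrix.smul_mulVec, dotProduct_smul, smul_eq_mul, Complex.re_ofReal_mul, mul_pow]
    calc σ ^ 2 * (star v ⬝ᵥ G *ᵥ v).re ^ 2 ≤ 1 * (star v ⬝ᵥ G *ᵥ v).re ^ 2 :=
          mul_le_mul_of_nonneg_right (by nlinarith [hσ.1, hσ.2]) (sq_nonneg _)
      _ = _ := one_mul _
      _ < _ := h.2.2 v hv

lemma pencil_posDef {G A : Mat N} (h : PencilPos G A) : A.PosDef :=
  posDef_of_re h.2.1 fun v hv =>
    pos_of_mul_pos_left ((sq_nonneg _).trans_lt (h.2.2 v hv)) (nq_re_pos hv).le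

lemma det_bound {Z : Mat N} (hZ : SpecUHP Z) {μ : ℂ} (hμ : μ.im < 0) :
    (-μ.im) ^ N ≤ ‖(Matrix.scalar (Fin N) μ - Z).det‖ := by
  have hs : Z.charpoly.Splits := IsAlgClosed.splits _
  rw [← Matrix.eval_charpoly, hs.eval_eq_prod_roots_of_monic (Matrix.charpoly_monic _)]
  have hc : Z.charpoly.roots.card = N := by
    rw [← Polynomial.Splits.natDegree_eq_card_roots hs, Matrix.charpoly_natDegree_eq_dim,
      Fintype.card_fin]
  have key : ∀ s : Multiset ℂ, (∀ r ∈ s, 0 < r.im) →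
      (-μ.im) ^ s.card ≤ ‖(s.map (μ - ·)).prod‖ := by
    intro s
    induction s using Multiset.induction_on with
    | empty => simp
    | cons a s ih =>
      intro hr
      rw [Multiset.card_cons, pow_succ', Multiset.map_cons, Multiset.prod_cons, norm_mul]
      refine mul_le_mul ?_ (ih fun r h => hr r (Multiset.mem_cons_of_mem h))
        (pow_nonneg (neg_nonneg.mpr hμ.le) _) (norm_nonneg _)
      refine le_trans ?_ (Complex.abs_im_le_norm _)
      refine le_trans ?_ (neg_le_abs _)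
      rw [Complex.sub_im]
      linarith [hr a (Multiset.mem_cons_self _ _)]
  have := key Z.charpoly.roots fun r hr => hZ r <|
    mem_spectrum_iff_isRoot_charpoly.mpr (Polynomial.isRoot_of_mem_roots hr)
  rwa [hc] at this

/-- Real eigenvalues are excluded by positivity of the pencil. -/
lemma no_real_eigenvalue {G A Z : Mat N} (h : PencilPos G A)
    (h1 : Z + star Z = -((2 : ℂ) • G)) (h2 : star Z * Z = A) {μ : ℂ}
    (hμ : μ ∈ spectrum ℂ Z) : μ.im ≠ 0 := by
  intro hr
  obtain ⟨v, hv, he⟩ := exists_eigvec hμ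
  have hs : star Z = -((2 : ℂ) • G) - Z := eq_sub_of_add_eq (by rw [add_comm]; exact h1)
  have e : qf A v = μ * (-2 * qf G v - μ * nq v) := by
    rw [← h2, qf, ← Matrix.mulVec_mulVec, he, Matrix.mulVec_smul, hs, Matrix.sub_mulVec, he,
      Matrix.neg_mulVec, Matrix.smul_mulVec, dotProduct_smul, dotProduct_sub, dotProduct_neg,
      dotProduct_smul, dotProduct_smul, qf, nq]
    simp only [smul_eq_mul]
    ring
  have hn : (nq v).im = 0 := (Complex.pos_iff.mp (dotProduct_star_self_pos_iff.mpr hv)).2.symm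
  have hg : (qf G v).im = 0 := qf_im h.1 v
  have e' := congrArg Complex.re e
  simp [hr, hn, hg, Complex.mul_re, Complex.mul_im] at e'
  have := h.2.2 v hv
  simp only [qf, nq] at e'
  rw [e'] at this
  nlinarith [sq_nonneg ((star v ⬝ᵥ G *ᵥ v).re + μ.re * (star v ⬝ᵥ v).re)]

lemma spec_of_tendsto {G A Z : Mat N} {Zs : ℕ → Mat N} (h : PencilPos G A)
    (h1 : Z + star Z = -((2 : ℂ) • G)) (h2 : star Z * Z = A)
    (hs : ∀ n, SpecUHP (Zs n)) (ht : Tendsto Zs atTop (𝓝 Z)) : SpecUHP Z := by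
  intro μ hμ
  rcases lt_trichotomy μ.im 0 with hc | hc | hc
  · have hcont : Continuous fun M : Mat N => ‖(Matrix.scalar (Fin N) μ - M).det‖ :=
      ((continuous_const.sub continuous_id).matrix_det).norm
    have := ge_of_tendsto' (hcont.tendsto Z |>.comp ht) fun n => det_bound (hs n) hc
    simp only [(mem_spectrum_iff_det Z μ).mp hμ, norm_zero] at this
    exact absurd this (not_le.mpr (pow_pos (neg_pos.mpr hc) _))
  · exact absurd hc (no_real_eigenvalue h h1 h2 hμ)
  · exact hc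

/-- `D ↦ Z D - D Z*` as a linear map. -/
def lyapLM (Z : Mat N) : Mat N →ₗ[ℂ] Mat N :=
  LinearMap.mulLeft ℂ Z - LinearMap.mulRight ℂ (star Z)

lemma lyap_bounded {Z : Mat N} {Zs Xs : ℕ → Mat N} (hZ : SpecUHP Z)
    (ht : Tendsto Zs atTop (𝓝 Z))
    (hl : ∀ n, Zs n * Xs n - Xs n * star (Zs n) = Complex.I • 1) :
    ∃ C, ∀ᶠ n in atTop, ‖Xs n‖ ≤ C := by
  have hk : LinearMap.ker (lyapLM Z) = ⊥ := LinearMap.ker_eq_bot'.mpr fun D hD =>
    lyap_injective hZ (by simpa [lyapLM] using hD)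
  obtain ⟨K, hK0, hK⟩ := (lyapLM Z).exists_antilipschitzWith hk
  refine ⟨2 * K * ‖(Complex.I • 1 : Mat N)‖, ?_⟩
  have hK0' : (0 : ℝ) < K := hK0
  have hev : ∀ᶠ n in atTop, ‖Zs n - Z‖ < 1 / (4 * (K : ℝ)) := by
    have := (tendsto_iff_norm_sub_tendsto_zero.mp ht).eventually
      (eventually_lt_nhds (show (0 : ℝ) < 1 / (4 * (K : ℝ)) by positivity))
    exact this
  filter_upwards [hev] with n hn
  have h1 : ‖Xs n‖ ≤ K * ‖Z * Xs n - Xs n * star Z‖ := by
    simpa [lyapLM] using hK.le_mul_dist (Xs n) 0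
  have h2 : Z * Xs n - Xs n * star Z
      = Complex.I • 1 - ((Zs n - Z) * Xs n - Xs n * star (Zs n - Z)) := by
    rw [← hl n, star_sub]; noncomm_ring
  have h3 : ‖(Zs n - Z) * Xs n - Xs n * star (Zs n - Z)‖ ≤ 2 * ‖Zs n - Z‖ * ‖Xs n‖ := by
    refine (norm_sub_le _ _).trans ?_
    refine (add_le_add (norm_mul_le _ _) (norm_mul_le _ _)).trans (le_of_eq ?_)
    rw [norm_star]; ring
  rw [h2] at h1
  have h4 := h1.trans (mul_le_mul_of_nonneg_left
    ((norm_sub_le _ _).trans (add_le_add_right h3 _)) hK0'.le)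
  have h5 : (K : ℝ) * (2 * ‖Zs n - Z‖ * ‖Xs n‖) ≤ ‖Xs n‖ / 2 := by
    have h6 : (K : ℝ) * ‖Zs n - Z‖ ≤ 1 / 4 := by
      rw [lt_div_iff₀ (by positivity)] at hn
      nlinarith [norm_nonneg (Zs n - Z)]
    nlinarith [norm_nonneg (Xs n), mul_le_mul_of_nonneg_right h6 (norm_nonneg (Xs n))]
  nlinarith

lemma posDef_of_tendsto {Z X : Mat N} {Xs : ℕ → Mat N}
    (hl : Z * X - X * star Z = Complex.I • 1) (hp : ∀ n, (Xs n).PosDef)
    (ht : Tendsto Xs atTop (𝓝 X)) : X.PosDef := by
  have hH : X.IsHermitian := by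
    refine tendsto_nhds_unique (ht.star.congr fun n => ?_) ht
    exact (hp n).isHermitian
  have hnn : ∀ v, 0 ≤ (qf X v).re := fun v => by
    have hc : Continuous fun M : Mat N => (qf M v).re :=
      Complex.continuous_re.comp (continuous_const.dotProduct
        (continuous_id.matrix_mulVec continuous_const))
    refine ge_of_tendsto' ((hc.tendsto X).comp ht) fun n => ?_
    rcases eq_or_ne v 0 with rfl | hv
    · simp [qf]
    · exact (qf_re_pos (hp n) hv).le
  have hps : X.PosSemidef := Matrix.PosSemidef.of_dotProduct_mulVec_nonneg hH fun v =>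
    Complex.nonneg_iff.mpr ⟨hnn v, (qf_im hH v).symm⟩
  refine posDef_of_re hH fun v hv => lt_of_le_of_ne (hnn v) fun he => ?_
  have hXv : X *ᵥ v = 0 := (hps.dotProduct_mulVec_zero_iff v).mp
    (Complex.ext he.symm (qf_im hH v))
  have hvX : star v ᵥ* X = 0 := by
    have := congrArg star hXv
    rwa [Matrix.star_mulVec, hH.eq, star_zero] at this
  have e := congrArg (fun M : Mat N => qf M v) hl
  simp [qf, Matrix.sub_mulVec, ← Matrix.mulVec_mulVec, hXv,
    Matrix.smul_mulVec, dotProduct_smul] at e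
  rw [Matrix.dotProduct_mulVec, hvX, zero_dotProduct] at e
  simp at e
  exact hv e

lemma exists_solvent_zero {A : Mat N} (hA : A.PosDef) :
    ∃ Z X, IsSolvent (0 : Mat N) A Z X := by
  have hH := hA.isHermitian
  refine ⟨_, _, isSolvent_cd hH.eigenvectorUnitary (fun _ => (0 : ℝ))
    (fun i => Real.sqrt (hH.eigenvalues i)) (fun i => Real.sqrt_pos.mpr (hA.eigenvalues_pos i))
    ?_ ?_⟩
  · simp [cd]
  · refine (eq_cd hH).trans ?_
    congr 1
    funext i
    rw [Real.sq_sqrt (hA.eigenvalues_pos i).le]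
    simp

/-- Existence. -/
lemma exists_solvent {G A : Mat N} (h : PencilPos G A) : ∃ Z X, IsSolvent G A Z X := by
  have : ProperSpace (Mat N) := FiniteDimensional.proper ℂ (Mat N)
  let s : Set ℝ := {σ | ∃ Z X, IsSolvent ((σ : ℂ) • G) A Z X}
  suffices hs : Icc (0 : ℝ) 1 ⊆ s by
    have := hs (right_mem_Icc.mpr zero_le_one)
    simpa [s] using this
  refine IsClosed.Icc_subset_of_forall_mem_nhdsWithin ?_ ?_ ?_
  · refine IsSeqClosed.isClosed fun σs σ hσs ht => ?_
    have hσ : σ ∈ Icc (0 : ℝ) 1 :=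
      isClosed_Icc.mem_of_tendsto ht (Eventually.of_forall fun n => (hσs n).2)
    refine ⟨?_, hσ⟩
    choose Zs Xs hZ using fun n => (hσs n).1
    have hb : Bornology.IsBounded (range Zs) :=
      Metric.isBounded_iff_subset_closedBall 0 |>.mpr ⟨Real.sqrt ‖A‖, by
        rintro _ ⟨n, rfl⟩
        rw [Metric.mem_closedBall, dist_zero_right, ← (hZ n).star_mul, CStarRing.norm_star_mul_self,
          Real.sqrt_mul_self (norm_nonneg _)]⟩
    obtain ⟨Z, -, φ, hφ, hφt⟩ := tendsto_subseq_of_bounded hb fun n => mem_range_self n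
    have hsg : Tendsto (fun n => (σs (φ n) : ℂ) • G) atTop (𝓝 ((σ : ℂ) • G)) :=
      (((Complex.continuous_ofReal.tendsto σ).comp
        (ht.comp hφ.tendsto_atTop))).smul_const G
    have h1 : Z + star Z = -((2 : ℂ) • ((σ : ℂ) • G)) :=
      tendsto_nhds_unique ((hφt.add hφt.star).congr fun n => (hZ (φ n)).add_star)
        ((hsg.const_smul (2 : ℂ)).neg)
    have h2 : star Z * Z = A :=
      tendsto_nhds_unique ((hφt.star.mul hφt).congr fun n => (hZ (φ n)).star_mul)
        tendsto_const_nhds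
    have hspec : SpecUHP Z := spec_of_tendsto (pencil_smul h hσ) h1 h2
      (fun n => isSolvent_spec (hZ (φ n))) hφt
    obtain ⟨C, hC⟩ := lyap_bounded hspec hφt (Xs := fun n => Xs (φ n))
      fun n => (hZ (φ n)).lyap
    obtain ⟨X, -, ψ, hψ, hψt⟩ := tendsto_subseq_of_frequently_bounded
      (Metric.isBounded_closedBall (x := (0 : Mat N)) (r := C))
      (x := fun n => Xs (φ n))
      (hC.frequently.mono fun n hn => by rwa [Metric.mem_closedBall, dist_zero_right])
    have hl : Z * X - X * star Z = Complex.I • 1 :=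
      tendsto_nhds_unique ((((hφt.comp hψ.tendsto_atTop).mul hψt).sub
        (hψt.mul (hφt.comp hψ.tendsto_atTop).star)).congr fun n => (hZ (φ (ψ n))).lyap)
        tendsto_const_nhds
    exact ⟨Z, X, h1, h2, hl, posDef_of_tendsto hl (fun n => (hZ (φ (ψ n))).pos) hψt⟩
  · obtain ⟨Z, X, hZ⟩ := exists_solvent_zero (pencil_posDef h)
    exact ⟨Z, X, by simpa using hZ⟩
  · rintro σ ⟨⟨Z, X, hZ⟩, -⟩
    obtain ⟨g, -, hg⟩ := exists_local hZ
    have hc : Tendsto (fun τ : ℝ => ((τ : ℂ) • G, A)) (𝓝 σ) (𝓝 ((σ : ℂ) • G, A)) :=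
      ((Complex.continuous_ofReal.smul continuous_const).prodMk continuous_const).tendsto σ
    refine mem_nhdsWithin_of_mem_nhds ((hc.eventually hg).mono fun τ hτ => ?_)
    refine ⟨_, _, hτ ?_ h.2.1⟩
    change star ((τ : ℂ) • G) = (τ : ℂ) • G
    rw [star_smul, Complex.star_def, Complex.conj_ofReal, h.1.star_eq]

/-- The selection. -/
noncomputable def pick (q : Mat N × Mat N) : Mat N × Mat N :=
  open Classical in
  if h : ∃ p : Mat N × Mat N, IsSolvent q.1 q.2 p.1 p.2 then h.choose else 0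

lemma pick_eq {G A Z X : Mat N} (h : IsSolvent G A Z X) : pick (G, A) = (Z, X) := by
  have he : ∃ p : Mat N × Mat N, IsSolvent G A p.1 p.2 := ⟨(Z, X), h⟩
  have hu := isSolvent_unique h he.choose_spec
  simp only [pick, dif_pos he]
  exact Prod.ext hu.1 hu.2

lemma pick_isSolvent {G A : Mat N} (h : PencilPos G A) :
    IsSolvent G A (pick (G, A)).1 (pick (G, A)).2 := by
  obtain ⟨Z, X, hZ⟩ := exists_solvent h
  rwa [pick_eq hZ]

lemma pick_continuousOn :
    ContinuousOn (pick (N := N)) {q | PencilPos q.1 q.2} := by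
  intro q hq
  obtain ⟨g, hg, he⟩ := exists_local (pick_isSolvent hq)
  refine (hg.continuousAt.continuousWithinAt).congr_of_eventuallyEq ?_ ?_
  · filter_upwards [nhdsWithin_le_nhds he, self_mem_nhdsWithin] with p hp hpm
    exact pick_eq (hp hpm.1 hpm.2.1)
  · exact pick_eq (he.self_of_nhds hq.1 hq.2.1)

end Vale.Agent.P371.Gamma.Sol
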