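import Vale.Agent.P371.Gamma.Solvent.Basic

/-!
P371, module Solvent: the inverse function theorem gives local solvents.
-/

open Matrix Filter Topology
open scoped Matrix.Norms.L2Operator ComplexOrder

namespace Vale.Agent.P371.Gamma.Sol

variable {N : ℕ}

/-- The map inverted by the solvent. -/
noncomputable def sys (q : Mat N × Mat N) : Mat N × Mat N :=
  ((q.1 + star q.1) + Complex.I • (star q.1 * q.1), q.1 * q.2 - q.2 * star q.1)

/-- The prescribed value of `sys`. -/
noncomputable def tgt (q : Mat N × Mat N) : Mat N × Mat N :=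
  (-((2 : ℂ) • q.1) + Complex.I • q.2, Complex.I • 1)

lemma tgt_differentiable : Differentiable ℝ (tgt (N := N)) :=
  (((differentiable_fst.const_smul (2 : ℂ)).neg).add
    (differentiable_snd.const_smul Complex.I)).prodMk (differentiable_const _)

lemma herm_split {P Q : Mat N} (hP : star P = P) (hQ : star Q = Q)
    (h : P + Complex.I • Q = 0) : P = 0 ∧ Q = 0 := by
  have e := congrArg star h
  rw [star_add, star_smul, hP, hQ, Complex.star_def, Complex.conj_I, neg_smul, star_zero] at e
  have h1 : (2 : ℂ) • P = 0 := by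
    have := congrArg₂ (· + ·) h e
    simp only [add_zero] at this
    rw [← this, two_smul]
    abel
  have h2 : P = 0 := (smul_eq_zero.mp h1).resolve_left two_ne_zero
  rw [h2, zero_add, smul_eq_zero] at h
  exact ⟨h2, h.resolve_left Complex.I_ne_zero⟩

lemma sys_hasStrictFDerivAt (Z X : Mat N) :
    ∃ F : (Mat N × Mat N) →L[ℝ] (Mat N × Mat N), HasStrictFDerivAt sys F (Z, X) ∧
      ∀ H K, F (H, K) = ((H + star H) + Complex.I • (star Z * H + star H * Z),
        (Z * K + H * X) - (X * star H + K * star Z)) := by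
  have hz : HasStrictFDerivAt (fun q : Mat N × Mat N => q.1) (ContinuousLinearMap.fst ℝ _ _)
      (Z, X) := hasStrictFDerivAt_fst
  have hx : HasStrictFDerivAt (fun q : Mat N × Mat N => q.2) (ContinuousLinearMap.snd ℝ _ _)
      (Z, X) := hasStrictFDerivAt_snd
  have h := ((hz.add hz.star).add ((hz.star.mul' hz).const_smul Complex.I)).prodMk
    ((hz.mul' hx).sub (hx.mul' hz.star))
  refine ⟨_, h, fun H K => ?_⟩
  simp

lemma sys_deriv_injective {G A Z X : Mat N} (h : IsSolvent G A Z X) {H K : Mat N}
    (h1 : (H + star H) + Complex.I • (star Z * H + star H * Z) = 0)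
    (h2 : (Z * K + H * X) - (X * star H + K * star Z) = 0) : H = 0 ∧ K = 0 := by
  have hs := isSolvent_spec h
  obtain ⟨hP, hQ⟩ := herm_split (by rw [star_add, star_star, add_comm])
    (by rw [star_add, star_mul, star_mul, star_star, star_star, add_comm]) h1
  have hH : star H = -H := eq_neg_of_add_eq_zero_right hP
  rw [hH, neg_mul, ← sub_eq_add_neg, sub_eq_zero] at hQ
  have hH0 : H = 0 :=
    eq_zero_of_semiconj (fun μ hμ hμ' => absurd (spec_star hs μ hμ) (hs μ hμ').le.not_gt) hQ
  subst hH0
  simp only [star_zero, zero_mul, mul_zero, add_zero, zero_add] at h2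
  exact ⟨rfl, lyap_injective hs h2⟩

lemma eventually_qf_pos {X0 : Mat N} (h : X0.PosDef) :
    ∀ᶠ X in 𝓝 X0, X.IsHermitian → X.PosDef := by
  have hc : IsCompact (Metric.sphere (0 : Fin N → ℂ) 1) := isCompact_sphere _ _
  have hq : Continuous fun p : Mat N × (Fin N → ℂ) => (qf p.1 p.2).re :=
    Complex.continuous_re.comp (Continuous.dotProduct (continuous_star.comp continuous_snd)
      (Continuous.matrix_mulVec continuous_fst continuous_snd))
  have he : ∀ᶠ X in 𝓝 X0, ∀ v ∈ Metric.sphere (0 : Fin N → ℂ) 1, 0 < (qf X v).re := by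
    refine hc.eventually_forall_of_forall_eventually fun v hv => ?_
    refine (isOpen_lt continuous_const hq).mem_nhds (qf_re_pos h ?_)
    rintro rfl
    simp at hv
  filter_upwards [he] with X hX hH
  refine posDef_of_re hH fun v hv => ?_
  have hn : 0 < ‖v‖ := norm_pos_iff.mpr hv
  have := hX ((‖v‖⁻¹ : ℂ) • v) (by simp [norm_smul, hn.ne'])
  simp only [qf, Matrix.mulVec_smul, dotProduct_smul, star_smul, smul_dotProduct,
    smul_eq_mul] at this
  rw [← mul_assoc, Complex.star_def, ← Complex.ofReal_inv, Complex.conj_ofReal,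
    ← Complex.ofReal_mul, Complex.re_ofReal_mul] at this
  exact pos_of_mul_pos_right this (mul_self_nonneg _)

/-- A solvent extends to a differentiable local family of solvents. -/
lemma exists_local {G A Z X : Mat N} (h : IsSolvent G A Z X) :
    ∃ g : Mat N × Mat N → Mat N × Mat N, DifferentiableAt ℝ g (G, A) ∧
      ∀ᶠ q in 𝓝 (G, A), q.1.IsHermitian → q.2.IsHermitian →
        IsSolvent q.1 q.2 (g q).1 (g q).2 := by
  obtain ⟨F, hF, hFa⟩ := sys_hasStrictFDerivAt Z X
  have hi : Function.Injective (F : (Mat N × Mat N) →ₗ[ℝ] (Mat N × Mat N)) := by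
    refine (injective_iff_map_eq_zero _).mpr fun q hq => ?_
    obtain ⟨H, K⟩ := q
    have e : F (H, K) = 0 := hq
    rw [hFa, Prod.mk_eq_zero] at e
    exact Prod.mk_eq_zero.mpr (sys_deriv_injective h e.1 e.2)
  let e : (Mat N × Mat N) ≃L[ℝ] (Mat N × Mat N) :=
    (LinearEquiv.ofInjectiveEndo _ hi).toContinuousLinearEquiv
  have he : HasStrictFDerivAt sys (e : (Mat N × Mat N) →L[ℝ] _) (Z, X) := by
    have hFe : (e : (Mat N × Mat N) →L[ℝ] _) = F := by
      ext q <;> rfl
    rwa [hFe]
  have h0 : tgt (G, A) = sys (Z, X) := by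
    simp [tgt, sys, h.add_star, h.star_mul, h.lyap]
  set L := he.localInverse sys e (Z, X)
  refine ⟨fun q => L (tgt q), ?_, ?_⟩
  · have hd : DifferentiableAt ℝ L (tgt (G, A)) := by
      rw [h0]
      exact he.to_localInverse.hasFDerivAt.differentiableAt
    exact hd.comp (G, A) (tgt_differentiable _)
  have hcs : Tendsto tgt (𝓝 (G, A)) (𝓝 (sys (Z, X))) := by
    rw [← h0]
    exact tgt_differentiable.continuous.tendsto _
  have hg : Tendsto (fun q => L (tgt q)) (𝓝 (G, A)) (𝓝 (Z, X)) :=
    he.localInverse_tendsto.comp hcs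
  have hXs : star X = X := h.pos.isHermitian
  have hstar : Tendsto (fun q => ((L (tgt q)).1, star (L (tgt q)).2)) (𝓝 (G, A)) (𝓝 (Z, X)) := by
    have := hg.fst_nhds.prodMk_nhds hg.snd_nhds.star
    rwa [hXs] at this
  filter_upwards [hcs.eventually he.eventually_right_inverse,
    hstar.eventually he.eventually_left_inverse, hg.snd_nhds.eventually (eventually_qf_pos h.pos)]
    with q hr hl hp hG hA
  set Z' := (L (tgt q)).1 with hZ'
  set X' := (L (tgt q)).2 with hX'
  have e1 : (Z' + star Z') + Complex.I • (star Z' * Z') = -((2 : ℂ) • q.1) + Complex.I • q.2 :=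
    congrArg Prod.fst hr
  have e2 : Z' * X' - X' * star Z' = Complex.I • 1 := congrArg Prod.snd hr
  have hh : star X' = X' := by
    have es : sys (Z', star X') = tgt q := Prod.ext e1 (star_lyap e2)
    have : L (sys (Z', star X')) = (Z', star X') := hl
    rw [es] at this
    exact (congrArg Prod.snd this).symm
  have hG' : star q.1 = q.1 := hG
  have hA' : star q.2 = q.2 := hA
  obtain ⟨hP, hQ⟩ := herm_split (P := Z' + star Z' + (2 : ℂ) • q.1) (Q := star Z' * Z' - q.2)
    (by simp only [star_add, star_star, star_smul, hG', Complex.star_def, Complex.conj_ofNat]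
        abel)
    (by rw [star_sub, star_mul, star_star, hA'])
    (by rw [smul_sub]; linear_combination (norm := module) e1)
  exact ⟨eq_neg_of_add_eq_zero_left hP, sub_eq_zero.mp hQ, e2, hp hh⟩

end Vale.Agent.P371.Gamma.Sol
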