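import Vale.Agent.P371.Gamma.Solvent.Deriv

/-!
P371, module Solvent: the phase identity along a path from `K` to `-K`.
-/

open Matrix Filter Topology Set MeasureTheory intervalIntegral
open scoped Matrix.Norms.L2Operator ComplexOrder

namespace Vale.Agent.P371.Gamma.Sol

variable {N : ℕ}

lemma exp_two_arctan (u : ℝ) {y : ℝ} (hy : 0 < y) :
    (u : ℂ) + Complex.I * y
      = Complex.exp (-(2 * Complex.I * (Real.arctan (u / y) : ℂ)))
        * (-(u : ℂ) + Complex.I * y) := by
  set θ := Real.arctan (u / y) with hθ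
  have hsc : u * Real.cos θ = y * Real.sin θ := by
    rw [hθ, Real.cos_arctan, Real.sin_arctan]; field_simp
  have he : -(2 * Complex.I * (θ : ℂ)) = (-θ : ℝ) * Complex.I + (-θ : ℝ) * Complex.I := by
    push_cast; ring
  have hc : (Real.cos θ : ℂ) + Real.sin θ * Complex.I ≠ 0 := by
    intro h
    have h1 := congrArg Complex.re h
    simp [Real.cos_arctan, hθ, -Complex.ofReal_cos, -Complex.ofReal_sin] at h1
    exact absurd h1 (Real.sqrt_ne_zero'.mpr (by positivity))
  have hm : ((Real.cos θ : ℂ) + Real.sin θ * Complex.I)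
      * Complex.exp ((-θ : ℝ) * Complex.I) = 1 := by
    have : (Real.cos θ : ℂ) + Real.sin θ * Complex.I = Complex.exp ((θ : ℂ) * Complex.I) := by
      rw [Complex.exp_mul_I]; simp
    rw [this, ← Complex.exp_add]; simp
  have hk : ((Real.cos θ : ℂ) + Real.sin θ * Complex.I) * ((u : ℂ) + Complex.I * y)
      = Complex.exp ((-θ : ℝ) * Complex.I) * (-(u : ℂ) + Complex.I * y) := by
    rw [Complex.exp_mul_I, ← Complex.ofReal_cos, ← Complex.ofReal_sin, Real.cos_neg, Real.sin_neg]
    have hsc' : (u : ℂ) * (Real.cos θ : ℝ) = (y : ℂ) * (Real.sin θ : ℝ) := by exact_mod_cast hsc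
    push_cast at hsc' ⊢
    linear_combination 2 * hsc' + (2 * (y : ℂ) * Complex.sin θ) * Complex.I_sq
  refine mul_left_cancel₀ hc ?_
  rw [he, Complex.exp_add, hk]
  simp only [← mul_assoc]
  rw [hm, one_mul]

/-- The determinant of the solvent at `±σ K`. -/
lemma pick_det_smul {K : Mat N} (hK : K.IsHermitian) {t : ℝ} (ht : 0 < t) {σ : ℝ}
    (hσ : σ ^ 2 ≤ 1) :
    (pick ((σ : ℂ) • K, K * K + (t : ℂ) • 1)).1.det
      = ∏ i, (-((σ * hK.eigenvalues i : ℝ) : ℂ)
          + Complex.I * (Real.sqrt (t + (1 - σ ^ 2) * hK.eigenvalues i ^ 2) : ℂ)) := by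
  have hpos : ∀ i, 0 < t + (1 - σ ^ 2) * hK.eigenvalues i ^ 2 := fun i =>
    add_pos_of_pos_of_nonneg ht (mul_nonneg (by linarith) (sq_nonneg _))
  have h := isSolvent_cd (G := (σ : ℂ) • K) (A := K * K + (t : ℂ) • 1) hK.eigenvectorUnitary
    (fun i => σ * hK.eigenvalues i)
    (fun i => Real.sqrt (t + (1 - σ ^ 2) * hK.eigenvalues i ^ 2))
    (fun i => Real.sqrt_pos.mpr (hpos i)) ?_ ?_
  · rw [pick_eq h, cd_det]
  · conv_lhs => rw [eq_cd hK, cd_smul]
    congr 1
    funext i
    simp
  · conv_lhs => rw [eq_cd hK, cd_mul, ← cd_one hK.eigenvectorUnitary, cd_smul, cd_add]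
    congr 1
    funext i
    rw [Real.sq_sqrt (hpos i).le]
    simp
    ring

/-- The phase identity for `σ G`. -/
lemma det_exp {a b : ℝ} {A : Mat N} {G G' : ℝ → Mat N} (hab : a < b)
    (hG : ∀ x ∈ Icc a b, HasDerivWithinAt G (G' x) (Icc a b) x)
    (hG' : ContinuousOn G' (Icc a b)) (hP : ∀ x ∈ Icc a b, PencilPos (G x) A) :
    (pick (G b, A)).1.det
        * Complex.exp (-(2 * Complex.I * ∫ x in a..b, ((pick (G x, A)).2 * G' x).trace))
      = (pick (G a, A)).1.det := by
  set f : ℝ → ℂ := fun x => ((pick (G x, A)).2 * G' x).trace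
  have hGc : ContinuousOn G (Icc a b) := fun x hx => (hG x hx).continuousWithinAt
  have hpc : ContinuousOn (fun x => pick (G x, A)) (Icc a b) :=
    pick_continuousOn.comp (hGc.prodMk continuousOn_const) hP
  have hf : ContinuousOn f (Icc a b) :=
    (Matrix.traceLinearMap (Fin N) ℂ ℂ).toContinuousLinearMap.continuous.comp_continuousOn
      ((continuous_snd.comp_continuousOn hpc).mul hG')
  let g : ℝ → ℂ := IccExtend hab.le ((Icc a b).domRestrict f)
  have hgc : Continuous g := hf.domRestrict.Icc_extend'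
  have hgf : ∀ x ∈ Icc a b, g x = f x := fun x hx => IccExtend_of_mem hab.le _ hx
  set φ : ℝ → ℂ := fun x =>
    (pick (G x, A)).1.det * Complex.exp (-(2 * Complex.I * ∫ u in a..x, g u)) with hφ
  have hd : ∀ x ∈ Icc a b, HasDerivWithinAt φ 0 (Icc a b) x := by
    intro x hx
    have h1 := hasDerivWithinAt_det (uniqueDiffOn_Icc hab x hx) hx (hG x hx)
      (fun u hu => (hP u hu).1) (hP x hx)
    have h2 : HasDerivWithinAt (fun x => ∫ u in a..x, g u) (g x) (Icc a b) x :=
      (hgc.integral_hasStrictDerivAt a x).hasDerivAt.hasDerivWithinAt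
    refine (h1.mul ((h2.const_mul (2 * Complex.I)).neg.cexp)).congr_deriv ?_
    rw [hgf x hx]
    simp only [f]
    ring
  have hconst := constant_of_has_deriv_right_zero (fun x hx => (hd x hx).continuousWithinAt)
    (fun x hx => (hd x (Ico_subset_Icc_self hx)).mono_of_mem_nhdsWithin
      (Icc_mem_nhdsGE_of_mem hx)) b (right_mem_Icc.mpr hab.le)
  have hi : ∫ u in a..b, g u = ∫ u in a..b, f u :=
    intervalIntegral.integral_congr fun u hu => hgf u (by rwa [uIcc_of_le hab.le] at hu)
  simpa [hφ, hi] using hconst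

theorem phase {a b t : ℝ} {K : Mat N} (hK : K.IsHermitian) {G G' : ℝ → Mat N} (hab : a < b)
    (ht : 0 < t) (hG' : ContinuousOn G' (Icc a b))
    (hG : ∀ x ∈ Icc a b, HasDerivWithinAt G (G' x) (Icc a b) x) (ha : G a = K) (hb : G b = -K)
    (hP : ∀ x ∈ Icc a b, PencilPos (G x) (K * K + (t : ℂ) • 1)) :
    ∫ x in a..b, ((pick (G x, K * K + (t : ℂ) • 1)).2 * G' x).trace.re
      = -∑ i, Real.arctan (hK.eigenvalues i / Real.sqrt t) := by
  set A := K * K + (t : ℂ) • (1 : Mat N) with hA
  set k := hK.eigenvalues with hk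
  let h : ℝ → ℝ → ℂ := fun σ x => ((pick ((σ : ℂ) • G x, A)).2 * G' x).trace
  let h' : ℝ → ℝ → ℂ := fun σ x =>
    h (projIcc 0 1 zero_le_one σ) (projIcc a b hab.le x)
  have hGc : ContinuousOn G (Icc a b) := fun x hx => (hG x hx).continuousWithinAt
  have hc' : Continuous (Function.uncurry h') := by
    have hon : ContinuousOn (Function.uncurry h) (Icc (0 : ℝ) 1 ×ˢ Icc a b) := by
      have hG2 : ContinuousOn (fun p : ℝ × ℝ => G p.2) (Icc (0 : ℝ) 1 ×ˢ Icc a b) :=
        hGc.comp continuousOn_snd fun p hp => hp.2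
      have hmap : MapsTo (fun p : ℝ × ℝ => ((p.1 : ℂ) • G p.2, A)) (Icc (0 : ℝ) 1 ×ˢ Icc a b)
          {q | PencilPos q.1 q.2} := fun p hp => pencil_smul (hP p.2 hp.2) hp.1
      have hq : ContinuousOn (fun p : ℝ × ℝ => ((p.1 : ℂ) • G p.2, A))
          (Icc (0 : ℝ) 1 ×ˢ Icc a b) :=
        ((Complex.continuous_ofReal.comp continuous_fst).continuousOn.smul hG2).prodMk
          continuousOn_const
      have hX : ContinuousOn (fun p : ℝ × ℝ => (pick ((p.1 : ℂ) • G p.2, A)).2)
          (Icc (0 : ℝ) 1 ×ˢ Icc a b) := (pick_continuousOn.comp hq hmap).snd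
      have hM : ContinuousOn (fun p : ℝ × ℝ => (pick ((p.1 : ℂ) • G p.2, A)).2 * G' p.2)
          (Icc (0 : ℝ) 1 ×ˢ Icc a b) := hX.mul (hG'.comp continuousOn_snd fun p hp => hp.2)
      have htr : Continuous fun M : Mat N => M.trace := continuous_id.matrix_trace
      have hT : ContinuousOn
          (fun p : ℝ × ℝ => ((pick ((p.1 : ℂ) • G p.2, A)).2 * G' p.2).trace)
          (Icc (0 : ℝ) 1 ×ˢ Icc a b) := htr.comp_continuousOn hM
      simp only [h, Function.uncurry_def]
      exact hT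
    have hproj : Continuous fun p : ℝ × ℝ =>
        ((projIcc 0 1 zero_le_one p.1 : ℝ), (projIcc a b hab.le p.2 : ℝ)) :=
      ((continuous_subtype_val.comp continuous_projIcc).comp continuous_fst).prodMk
        ((continuous_subtype_val.comp continuous_projIcc).comp continuous_snd)
    have hcomp := hon.comp_continuous hproj
      fun p => ⟨(projIcc 0 1 zero_le_one p.1).2, (projIcc a b hab.le p.2).2⟩
    simp only [h', Function.uncurry_def] at hcomp ⊢
    exact hcomp
  let C : ℝ → ℂ := fun σ => (σ : ℂ) * ∫ x in a..b, h' σ x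
  let Θ : ℝ → ℝ := fun σ =>
    ∑ i, Real.arctan (σ * k i / Real.sqrt (t + (1 - σ ^ 2) * k i ^ 2))
  let F : ℝ → ℝ := fun σ => (C σ).re + Θ σ
  have hpos : ∀ σ ∈ Icc (0 : ℝ) 1, ∀ i, 0 < t + (1 - σ ^ 2) * k i ^ 2 := fun σ hσ i =>
    add_pos_of_pos_of_nonneg ht (mul_nonneg (by nlinarith [hσ.1, hσ.2]) (sq_nonneg _))
  have hFc : ContinuousOn F (Icc 0 1) := by
    refine ContinuousOn.add ?_ (continuousOn_finsetSum _ fun i _ => ?_)
    · exact (Complex.continuous_re.comp (Complex.continuous_ofReal.mul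
        (intervalIntegral.continuous_parametric_intervalIntegral_of_continuous' hc' a
          b))).continuousOn
    · exact Real.continuous_arctan.comp_continuousOn (ContinuousOn.div (by fun_prop) (by fun_prop)
        fun σ hσ => (Real.sqrt_pos.mpr (hpos σ hσ i)).ne')
  have hFZ : ∀ σ ∈ Icc (0 : ℝ) 1, Real.sin (F σ) = 0 := by
    intro σ hσ
    have hval : ∀ x ∈ Icc a b, h' σ x = h σ x := fun x hx => by
      simp only [h', projIcc_of_mem _ hσ, projIcc_of_mem _ hx]
    have hd := det_exp (A := A) (G := fun x => (σ : ℂ) • G x) (G' := fun x => (σ : ℂ) • G' x) hab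
      (fun x hx => (hG x hx).const_smul (σ : ℂ)) (hG'.const_smul (σ : ℂ))
      (fun x hx => pencil_smul (hP x hx) hσ)
    have hi : ∫ x in a..b, ((pick ((σ : ℂ) • G x, A)).2 * ((σ : ℂ) • G' x)).trace = C σ := by
      rw [show C σ = ∫ x in a..b, (σ : ℂ) * h' σ x from
        (intervalIntegral.integral_const_mul _ _).symm]
      refine intervalIntegral.integral_congr fun x hx => ?_
      rw [uIcc_of_le hab.le] at hx
      rw [hval x hx, mul_smul_comm, Matrix.trace_smul, smul_eq_mul]
    have hσ2 : σ ^ 2 ≤ 1 := by nlinarith [hσ.1, hσ.2]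
    have hneg : (σ : ℂ) • -K = ((-σ : ℝ) : ℂ) • K := by
      rw [smul_neg, Complex.ofReal_neg, neg_smul]
    rw [hi, ha, hb, hneg, hA, pick_det_smul hK ht hσ2,
      pick_det_smul hK ht (by rwa [neg_sq])] at hd
    simp only [← hk, neg_mul, Complex.ofReal_neg, neg_neg, neg_sq] at hd
    set y : Fin N → ℝ := fun i => Real.sqrt (t + (1 - σ ^ 2) * k i ^ 2) with hy
    have hne : (∏ i, (-((σ * k i : ℝ) : ℂ) + Complex.I * (y i : ℂ))) ≠ 0 :=
      Finset.prod_ne_zero_iff.mpr fun i _ h0 => by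
        have := congrArg Complex.im h0
        simp at this
        exact (Real.sqrt_pos.mpr (hpos σ hσ i)).ne' this
    have hprod : (∏ i, (((σ * k i : ℝ) : ℂ) + Complex.I * (y i : ℂ)))
        = Complex.exp (-(2 * Complex.I * (Θ σ : ℂ)))
          * ∏ i, (-((σ * k i : ℝ) : ℂ) + Complex.I * (y i : ℂ)) := by
      rw [show -(2 * Complex.I * (Θ σ : ℂ))
          = ∑ i, -(2 * Complex.I * (Real.arctan (σ * k i / y i) : ℂ)) by
        simp only [Θ, hy, Complex.ofReal_sum, Finset.mul_sum, Finset.sum_neg_distrib],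
        Complex.exp_sum, ← Finset.prod_mul_distrib]
      exact Finset.prod_congr rfl fun i _ =>
        exp_two_arctan _ (Real.sqrt_pos.mpr (hpos σ hσ i))
    rw [hprod, mul_right_comm, ← Complex.exp_add] at hd
    have he := (mul_eq_right₀ hne).mp hd
    obtain ⟨n, hn⟩ := Complex.exp_eq_one_iff.mp he
    have hn' := congrArg Complex.im hn
    simp [Complex.mul_im] at hn'
    rw [show F σ = ((-n : ℤ) : ℝ) * Real.pi by simp only [F]; push_cast; linarith]
    exact Real.sin_int_mul_pi _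
  have hF0 : F 0 = 0 := by simp [F, C, Θ]
  have hF1 : F 1 = 0 := by
    obtain ⟨n, hn⟩ := Real.sin_eq_zero_iff.mp (hFZ 1 (right_mem_Icc.mpr zero_le_one))
    rcases eq_or_ne n 0 with rfl | hn0
    · simpa using hn.symm
    have hπ := Real.pi_pos
    rcases lt_or_gt_of_ne hn0 with hneg | hposn
    · have hle : F 1 ≤ -(Real.pi / 2) := by
        have : (n : ℝ) ≤ -1 := by exact_mod_cast Int.le_sub_one_of_lt hneg
        nlinarith
      obtain ⟨σ, hσ, hFσ⟩ := intermediate_value_Icc' zero_le_one hFc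
        (show -(Real.pi / 2) ∈ Icc (F 1) (F 0) from ⟨hle, by linarith⟩)
      have := hFZ σ hσ
      rw [hFσ, Real.sin_neg, Real.sin_pi_div_two] at this
      norm_num at this
    · have hle : Real.pi / 2 ≤ F 1 := by
        have : (1 : ℝ) ≤ n := by exact_mod_cast hposn
        nlinarith
      obtain ⟨σ, hσ, hFσ⟩ := intermediate_value_Icc zero_le_one hFc
        (show Real.pi / 2 ∈ Icc (F 0) (F 1) from ⟨by linarith, hle⟩)
      have := hFZ σ hσ
      rw [hFσ, Real.sin_pi_div_two] at this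
      norm_num at this
  have hint : IntervalIntegrable (h' 1) volume a b :=
    ((hc'.comp (Continuous.prodMk_right 1))).intervalIntegrable a b
  have hre := Complex.reCLM.intervalIntegral_comp_comm hint
  have hI : ∫ x in a..b, ((pick (G x, A)).2 * G' x).trace.re = (C 1).re := by
    simp only [C, Complex.ofReal_one, one_mul]
    refine Eq.trans ?_ hre
    refine intervalIntegral.integral_congr fun x hx => ?_
    rw [uIcc_of_le hab.le] at hx
    simp [h', h, projIcc_of_mem _ hx]
  rw [hI]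
  have hT : Θ 1 = ∑ i, Real.arctan (k i / Real.sqrt t) := by simp [Θ]
  simp only [F] at hF1
  linarith

end Vale.Agent.P371.Gamma.Sol
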